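import Vale.Agent.Lib.P328.FPRAS
import Vale.Agent.Lib.P328.OutDefs

/-!
P328: there is an FPRAS for the number of contingency tables with arbitrary margins.
-/

namespace Vale.Agent.Results.P328.FPRAS

open Vale.Agent.Lib.P328

theorem numTables_eq (r c : List ℕ) :
    numTables r c = (tab (fun i : Fin r.length => r.get i) (fun j : Fin c.length => c.get j)).card := by
  unfold numTables
  rw [Nat.card_congr (Equiv.subtypeEquivRight (fun X => (mem_tab (r := fun i => r.get i)
    (c := fun j => c.get j) (X := X)).symm))]
  exact Nat.subtype_card _ (fun x => Iff.rfl)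

/-- There is a randomized algorithm, running in polynomial time on a Turing machine, which for all
margins `r`, `c` written in binary (any number of rows and columns, equal sums), every `E ≥ 1` and
`D` written in unary, outputs with probability at least `1 - 2^(-D)` a rational number within a
factor `1 ± 1/E` of the number of contingency tables. -/
theorem result : ∃ (est : Input × List Bool → ℕ × ℕ) (q : Polynomial ℕ),
    Nonempty (Turing.TM2ComputableInPolyTime encIn encOut est) ∧
      ∀ x : Input, x.r ≠ [] → x.c ≠ [] → x.r.sum = x.c.sum → 1 ≤ x.E →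
        1 - (1 / 2 : ℝ) ^ x.D ≤ successProb est (q.eval (encInput x).length) x := by
  classical
  obtain ⟨a, ha⟩ := estimate_spec
  refine ⟨estimate a, bitsPoly a, estimate_poly a, fun x hr hc hsum hE => ?_⟩
  have h := ha x hr hc hsum hE
  unfold successProb
  rw [le_div_iff₀ (by positivity)]
  refine h.trans (le_of_eq ?_)
  norm_cast
  rw [Nat.card_eq_fintype_card, Fintype.card_subtype]
  congr 1
  ext ρ
  simp only [Finset.mem_filter, Finset.mem_univ, true_and]
  rw [numTables_eq, abs_sub_le_iff]
  set N : ℝ := ((tab (fun i : Fin x.r.length => x.r.get i)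
    (fun j : Fin x.c.length => x.c.get j)).card : ℝ) with hN
  have e1 : (1 - 1 / (x.E : ℝ)) * N = N - N / x.E := by ring
  have e2 : (1 + 1 / (x.E : ℝ)) * N = N + N / x.E := by ring
  rw [e1, e2]
  constructor
  · rintro ⟨h1, h2⟩
    exact ⟨by linarith, by linarith⟩
  · rintro ⟨h1, h2⟩
    exact ⟨by linarith, by linarith⟩

end Vale.Agent.Results.P328.FPRAS
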