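import Mathlib
import Vale.Agent.Lib.P328.EncDefs
import Vale.Agent.Lib.P328.FPRAS

/-!
P328: a fully polynomial randomized approximation scheme for the number of contingency tables with
arbitrary margins.
-/

namespace Vale.Agent.Results.P328.RealParams

open Vale.Agent.Lib.P328

/-- the contingency tables with row sums `r` and column sums `c` -/
def Omega (r c : List ℕ) : Set (Fin r.length → Fin c.length → ℕ) :=
  {X | (∀ i, ∑ j, X i j = r.get i) ∧ ∀ j, ∑ i, X i j = c.get j}

/-- `F` is a fully polynomial randomized approximation scheme for the number of contingency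
tables, with `q L` random bits for inputs of length `L`: the function `F` of the input and the
random bits is computed by a multi-stack Turing machine in time polynomial in the length of the
encoded argument, and for all margins `r`, `c` with equal sums and all `ε, δ ∈ (0, 1)`, on the input
`(r, c, ⌈1/ε⌉, ⌈log₂ (1/δ)⌉)`, margins in binary, the last two numbers in unary, and with uniform
random bits `ρ`, the quotient of the two output numbers lies between `(1 - ε) |Ω(r, c)|` and
`(1 + ε) |Ω(r, c)|` with probability at least `1 - δ` -/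
def IsFPRAS (F : Input × List Bool → ℕ × ℕ) (q : Polynomial ℕ) : Prop :=
  Nonempty (Turing.TM2ComputableInPolyTime encIn encOut F) ∧
    ∀ (r c : List ℕ) (ε δ : ℝ), r ≠ [] → c ≠ [] → r.sum = c.sum → 0 < ε → ε < 1 → 0 < δ → δ < 1 →
      ∀ x : Input, x = ⟨r, c, ⌈1 / ε⌉₊, ⌈Real.logb 2 (1 / δ)⌉₊⟩ →
        (1 - δ) * 2 ^ q.eval (encInput x).length ≤
          (Nat.card {ρ : Fin (q.eval (encInput x).length) → Bool //
            (1 - ε) * (Omega r c).ncard ≤
                ((F (x, List.ofFn ρ)).1 : ℝ) / ((F (x, List.ofFn ρ)).2 : ℝ) ∧
              ((F (x, List.ofFn ρ)).1 : ℝ) / ((F (x, List.ofFn ρ)).2 : ℝ) ≤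
                (1 + ε) * (Omega r c).ncard} : ℝ)

theorem tab_eq (r c : List ℕ) :
    (↑(tab (fun i : Fin r.length => r.get i) (fun j : Fin c.length => c.get j)) :
      Set (Fin r.length → Fin c.length → ℕ)) = Omega r c := by
  ext X
  simp only [tab, Finset.coe_filter, Set.mem_ofPred_eq, Omega, Fintype.mem_piFinset,
    Finset.mem_range]
  constructor
  · rintro ⟨-, h⟩
    exact h
  · intro h
    refine ⟨fun i j => ?_, h⟩
    have h1 := h.2 j
    have h2 : X i j ≤ ∑ i, X i j :=
      Finset.single_le_sum (f := fun i => X i j) (fun _ _ => Nat.zero_le _) (Finset.mem_univ i)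
    omega

theorem ncard_eq (r c : List ℕ) : (Omega r c).ncard =
    (tab (fun i : Fin r.length => r.get i) (fun j : Fin c.length => c.get j)).card := by
  rw [← tab_eq, Set.ncard_coe_finset]

theorem length_encNum (a : ℕ) : (encNum a).length = Nat.size a + 1 := by
  unfold encNum
  rw [List.length_append, List.length_map, List.length_singleton, ← Nat.size_eq_bits_len]

theorem length_encVec (v : List ℕ) :
    (encVec v).length = (v.map fun a => Nat.size a + 1).sum + 1 := by
  unfold encVec
  rw [List.length_append, List.length_singleton, List.length_flatMap]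
  congr 3
  funext a
  exact length_encNum a

/-- the length of the encoded input -/
theorem length_encInput (x : Input) : (encInput x).length =
    (x.r.map fun a => Nat.size a + 1).sum + (x.c.map fun a => Nat.size a + 1).sum +
      x.E + x.D + 4 := by
  unfold encInput encUn
  simp only [List.length_append, length_encVec, List.length_replicate, List.length_singleton]
  ring

/-- The encodings of inputs, of inputs with random bits and of outputs are injective, the length of
an encoded input is the number of binary digits of the margins plus `m + n + E + D + 4`, and there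
is a fully polynomial randomized approximation scheme for the number of contingency tables, with
no restriction on the margins. -/
theorem result :
    Function.Injective encInput ∧ Function.Injective encIn ∧ Function.Injective encOut ∧
      (∀ x : Input, (encInput x).length = (x.r.map fun a => Nat.size a + 1).sum +
        (x.c.map fun a => Nat.size a + 1).sum + x.E + x.D + 4) ∧
      ∃ (F : Input × List Bool → ℕ × ℕ) (q : Polynomial ℕ), IsFPRAS F q := by
  classical
  refine ⟨encInput_injective, encIn_injective, encOut_injective, length_encInput, ?_⟩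
  obtain ⟨a, ha⟩ := estimate_spec
  refine ⟨estimate a, bitsPoly a, estimate_poly a, ?_⟩
  intro r c ε δ hr hc hs hε0 hε1 hδ0 hδ1 x hx
  have hxr : x.r = r := by rw [hx]
  have hxc : x.c = c := by rw [hx]
  have hxE : x.E = ⌈1 / ε⌉₊ := by rw [hx]
  have hxD : x.D = ⌈Real.logb 2 (1 / δ)⌉₊ := by rw [hx]
  subst hxr hxc
  have hE : 1 / ε ≤ (x.E : ℝ) := by rw [hxE]; exact Nat.le_ceil _
  have hE0 : 0 < (x.E : ℝ) := lt_of_lt_of_le (by positivity) hE
  have hE1 : 1 ≤ x.E := by exact_mod_cast hE0
  have hεE : 1 / (x.E : ℝ) ≤ ε := by
    rw [div_le_iff₀ hE0]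
    rw [div_le_iff₀ hε0] at hE
    linarith [mul_comm ε (x.E : ℝ)]
  have hD : (1 / 2 : ℝ) ^ x.D ≤ δ := by
    have h1 : Real.logb 2 (1 / δ) ≤ (x.D : ℝ) := by rw [hxD]; exact Nat.le_ceil _
    rw [Real.logb_le_iff_le_rpow (by norm_num) (by positivity), Real.rpow_natCast] at h1
    rw [div_le_iff₀ hδ0] at h1
    rw [one_div, inv_pow, inv_le_iff_one_le_mul₀ (by positivity)]
    linarith [mul_comm δ ((2 : ℝ) ^ x.D)]
  have h := ha x hr hc hs hE1
  rw [← ncard_eq] at h
  have h2 : (1 - δ) * 2 ^ (bitsPoly a).eval (encInput x).length ≤
      (1 - (1 / 2 : ℝ) ^ x.D) * 2 ^ (bitsPoly a).eval (encInput x).length :=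
    mul_le_mul_of_nonneg_right (by linarith) (by positivity)
  refine h2.trans (h.trans ?_)
  rw [← Fintype.card_subtype, ← Nat.card_eq_fintype_card, Nat.cast_le]
  refine Nat.card_le_card_of_injective (fun ρ => ⟨ρ.1, ?_⟩) ?_
  · have h3 := abs_le.1 ρ.2
    have h4 : ((Omega x.r x.c).ncard : ℝ) / x.E ≤ ε * (Omega x.r x.c).ncard := by
      rw [div_eq_mul_one_div, mul_comm]
      exact mul_le_mul_of_nonneg_right hεE (Nat.cast_nonneg _)
    constructor
    · linarith [h3.1]
    · linarith [h3.2]
  · intro ρ ρ' h3
    exact Subtype.ext (by simpa using congrArg Subtype.val h3)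

end Vale.Agent.Results.P328.RealParams
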