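import Mathlib
import Vale.Agent.Lib.P328.WordMain

/-!
P328: a Turing machine on words which is a fully polynomial randomized approximation scheme for the
number of contingency tables with arbitrary margins.
-/

namespace Vale.Agent.Results.P328.WordTransducer

/-- The set `Ω(r, c)`: the `m × n` matrices of nonnegative integers with row sums `r` and column
sums `c`. -/
def Omega {m n : ℕ} (r : Fin m → ℕ) (c : Fin n → ℕ) : Set (Matrix (Fin m) (Fin n) ℕ) :=
  {X | (∀ i, ∑ j, X i j = r i) ∧ ∀ j, ∑ i, X i j = c j}

/-- The word of a number over the alphabet `{0, 1, 2, 3}`: its binary digits (least significant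
first), then the end mark `2`. -/
def num (a : ℕ) : List (Fin 4) := (Nat.bits a).map (fun b => if b then 1 else 0) ++ [2]

/-- The input word: the row sums in binary, `3`, the column sums in binary, `3`, `E` in unary, `3`,
`D` in unary, `3`. -/
def word {m n : ℕ} (r : Fin m → ℕ) (c : Fin n → ℕ) (E D : ℕ) : List (Fin 4) :=
  ((List.ofFn r).flatMap num ++ [3]) ++ ((List.ofFn c).flatMap num ++ [3]) ++
    (List.replicate E 1 ++ [3]) ++ (List.replicate D 1 ++ [3])

/-- There is a function `F` on words over `{0, 1, 2, 3}` which is computed by a Turing machine (with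
finitely many stacks) in time polynomial in the length of the word, and a polynomial `q`, such that
for all `m, n ≥ 1`, all margins `r`, `c` with equal sums and all `ε, δ` in `(0, 1)`: if `w` is the
input word (of the length given in the first clause) and `ρ` is a string of `q |w|` independent fair
bits, then with probability at least `1 - δ` the output `F (w ρ)` is the word of two numbers `p`, `d`
with `(1 - ε) |Ω(r, c)| ≤ p / d ≤ (1 + ε) |Ω(r, c)|`. -/
theorem result :
    (∀ (m n : ℕ) (r : Fin m → ℕ) (c : Fin n → ℕ) (E D : ℕ), (word r c E D).length =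
      m + ∑ i, Nat.size (r i) + n + ∑ j, Nat.size (c j) + E + D + 4) ∧
    ∃ (F : List (Fin 4) → List (Fin 4)) (q : Polynomial ℕ),
      Nonempty (Turing.TM2ComputableInPolyTime id id F) ∧
      ∀ (m n : ℕ) (r : Fin m → ℕ) (c : Fin n → ℕ), 1 ≤ m → 1 ≤ n → ∑ i, r i = ∑ j, c j →
        ∀ ε δ : ℝ, 0 < ε → ε < 1 → 0 < δ → δ < 1 →
          ∀ w : List (Fin 4), w = word r c ⌈1 / ε⌉₊ ⌈Real.logb 2 (1 / δ)⌉₊ →
            ENNReal.ofReal (1 - δ) ≤
              (PMF.uniformOfFintype (Fin (q.eval w.length) → Bool)).toOuterMeasure
                {ρ | ∃ p d : ℕ,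
                  F (w ++ (List.ofFn ρ).map (fun b => if b then 1 else 0)) = num p ++ num d ∧
                  (1 - ε) * Nat.card (Omega r c) ≤ (p : ℝ) / d ∧
                  (p : ℝ) / d ≤ (1 + ε) * Nat.card (Omega r c)} :=
  Vale.Agent.Lib.P328.WordMain.main_result

end Vale.Agent.Results.P328.WordTransducer
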